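import Vale.Agent.P253K97.Main
import Vale.Agent.P253W.Top

open scoped Manifold ContDiff
open Vale.Agent.P253K

namespace Vale.Agent.Results.P253.AAAKaehlerForm

/-- Yau's uniformization conjecture, for Kähler manifolds defined by `dω = 0` and the curvature
tensor of the Levi-Civita connection. -/
theorem result (n : ℕ) (M : Type) [TopologicalSpace M] [T2Space M] [ConnectedSpace M]
    [ChartedSpace (Fin n → ℂ) M] [IsManifold 𝓘(ℂ, Fin n → ℂ) 1 M] :
    RealSmooth (Fin n → ℂ) M ∧ JChart (Fin n → ℂ) M ∧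
    ∀ [RealSmooth (Fin n → ℂ) M] [Met (Fin n → ℂ) M] [SmoothMet (Fin n → ℂ) M],
      (∃ cov : Conn (Fin n → ℂ) M, IsLeviCivita cov) ∧
      ∀ cov : Conn (Fin n → ℂ) M, IsLeviCivita cov →
        (∀ cov' : Conn (Fin n → ℂ) M, IsLeviCivita cov' → Agree cov' cov) ∧
        (∃! Rm, IsCurv cov Rm) ∧
        (Hermitian (Fin n → ℂ) M → (Closed (Fin n → ℂ) M ↔ ParallelJ cov)) ∧
        ∀ Rm, IsCurv cov Rm → Hermitian (Fin n → ℂ) M → Closed (Fin n → ℂ) M →
          Complete (Fin n → ℂ) M → NoncompactSpace M → PosBisec Rm →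
          Nonempty (M ≃ₘ^1⟮𝓘(ℂ, Fin n → ℂ), 𝓘(ℂ, Fin n → ℂ)⟯ (Fin n → ℂ)) :=
  main fun _ _ _ _ h => Vale.Agent.P253W.yau h

end Vale.Agent.Results.P253.AAAKaehlerForm
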